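import Vale.Agent.P015.H721.Strip

/-!
P015, block (I): the short vector lemma.
-/

namespace Vale.Agent.P015.H721

open Finset

theorem lag_dd (e v u : ℤ × ℤ) : dd e u * nm v = dd e v * dd v u + cr v e * cr v u := by
  unfold dd nm cr; ring

theorem lag_cr (e v u : ℤ × ℤ) : cr e u * nm v = cr e v * dd v u + dd e v * cr v u := by
  unfold dd nm cr; ring

theorem lag_e (e v w : ℤ × ℤ) : cr v w * nm e = dd e v * cr e w - cr e v * dd e w := by
  unfold dd nm cr; ring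

theorem shortvec {M : ℕ} {R : ℤ} {e : ℤ × ℤ} {L A B : ℝ} (hL0 : 0 < L)
    (hL : L ^ 2 = (nm e : ℝ)) (hA : 0 < A) (hB : 0 < B) (hM : 0 < M) (S : Finset (ℤ × ℤ))
    (hS1 : ∀ z ∈ S, ∀ z' ∈ S, |(dd e (z - z') : ℝ)| ≤ A * L)
    (hS2 : ∀ z ∈ S, ∀ z' ∈ S, |(cr e (z - z') : ℝ)| ≤ B * L)
    (hS3 : ∀ z ∈ S, ∀ z' ∈ S, (M : ℤ) ∣ (z - z').1 + R * (z - z').2)
    (h2 : 2 ≤ S.card) (h16 : 16 * (A * B) ≤ S.card * M) :
    ∃ v : ℤ × ℤ, v ≠ 0 ∧ (M : ℤ) ∣ v.1 + R * v.2 ∧ |(dd e v : ℝ)| ≤ 4 * A / S.card * L ∧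
      |(cr e v : ℝ)| ≤ 4 * B / S.card * L := by
  classical
  have hMr : (0 : ℝ) < M := by exact_mod_cast hM
  obtain ⟨nu, hnu⟩ : ∃ nu : ℤ × ℤ → ℝ, nu = fun u =>
    max (|(dd e u : ℝ)| / (A * L)) (|(cr e u : ℝ)| / (B * L)) := ⟨_, rfl⟩
  have hnu' : ∀ u, nu u = max (|(dd e u : ℝ)| / (A * L)) (|(cr e u : ℝ)| / (B * L)) :=
    fun u => by rw [hnu]
  have hAL : 0 < A * L := mul_pos hA hL0
  have hBL : 0 < B * L := mul_pos hB hL0
  have hnu1 : ∀ u, |(dd e u : ℝ)| ≤ nu u * (A * L) := fun u => by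
    rw [← div_le_iff₀ hAL, hnu']; exact le_max_left _ _
  have hnu2 : ∀ u, |(cr e u : ℝ)| ≤ nu u * (B * L) := fun u => by
    rw [← div_le_iff₀ hBL, hnu']; exact le_max_right _ _
  have hS0 : S.offDiag.Nonempty := by
    obtain ⟨a, ha, b, hb, hab⟩ := Finset.one_lt_card.1 (by omega : 1 < S.card)
    exact ⟨(a, b), mem_offDiag.2 ⟨ha, hb, hab⟩⟩
  obtain ⟨p, hp, hmin⟩ := exists_min_image S.offDiag (fun p => nu (p.1 - p.2)) hS0
  obtain ⟨hp1, hp2, hp12⟩ := mem_offDiag.1 hp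
  obtain ⟨v, hv⟩ : ∃ v : ℤ × ℤ, v = p.1 - p.2 := ⟨_, rfl⟩
  have hv0 : v ≠ 0 := hv ▸ sub_ne_zero.2 hp12
  have hvM : (M : ℤ) ∣ v.1 + R * v.2 := hv ▸ hS3 _ hp1 _ hp2
  have hmin' : ∀ z ∈ S, ∀ z' ∈ S, z ≠ z' → nu v ≤ nu (z - z') := fun z hz z' hz' hne => by
    rw [hv]
    exact hmin (z, z') (mem_offDiag.2 ⟨hz, hz', hne⟩)
  have hle1 : ∀ z ∈ S, ∀ z' ∈ S, nu (z - z') ≤ 1 := fun z hz z' hz' => by
    rw [hnu']
    refine max_le ?_ ?_
    · rw [div_le_one hAL]; exact hS1 z hz z' hz'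
    · rw [div_le_one hBL]; exact hS2 z hz z' hz'
  have hν1 : nu v ≤ 1 := hv ▸ hle1 _ hp1 _ hp2
  have hnmv : 0 < nm v := nm_pos hv0
  have hnmvr : (0 : ℝ) < nm v := by exact_mod_cast hnmv
  have hν0 : 0 < nu v := by
    rcases lt_or_ge 0 (nu v) with h | h
    · exact h
    · exfalso
      have h1 : |(dd e v : ℝ)| ≤ 0 := (hnu1 v).trans (mul_nonpos_of_nonpos_of_nonneg h hAL.le)
      have h2 : |(cr e v : ℝ)| ≤ 0 := (hnu2 v).trans (mul_nonpos_of_nonpos_of_nonneg h hBL.le)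
      have h3 : (dd e v : ℝ) = 0 := abs_nonpos_iff.1 h1
      have h4 : (cr e v : ℝ) = 0 := abs_nonpos_iff.1 h2
      have h5 : ((dd e v : ℝ)) ^ 2 + (cr e v : ℝ) ^ 2 = nm e * nm v := by exact_mod_cast dd_cr e v
      rw [h3, h4, ← hL] at h5
      have : 0 < L ^ 2 * (nm v : ℝ) := by positivity
      linarith
  -- parallel differences
  have hpar : ∀ u : ℤ × ℤ, cr v u = 0 → nu u = |(dd v u : ℝ) / nm v| * nu v := by
    intro u hu
    have h1 : (dd e u : ℝ) * nm v = dd e v * dd v u := by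
      have := lag_dd e v u
      rw [hu, mul_zero, add_zero] at this
      exact_mod_cast this
    have h2 : (cr e u : ℝ) * nm v = cr e v * dd v u := by
      have := lag_cr e v u
      rw [hu, mul_zero, add_zero] at this
      exact_mod_cast this
    have h3 : (dd e u : ℝ) = (dd v u : ℝ) / nm v * dd e v := by
      rw [eq_comm, div_mul_eq_mul_div, div_eq_iff hnmvr.ne', h1]; ring
    have h4 : (cr e u : ℝ) = (dd v u : ℝ) / nm v * cr e v := by
      rw [eq_comm, div_mul_eq_mul_div, div_eq_iff hnmvr.ne', h2]; ring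
    rw [hnu' u, hnu' v, h3, h4, abs_mul, abs_mul, mul_div_assoc, mul_div_assoc,
      mul_max_of_nonneg _ _ (abs_nonneg _)]
  obtain ⟨z0, hz0⟩ : S.Nonempty := card_pos.1 (by omega)
  obtain ⟨row, hrow⟩ : ∃ row : ℤ × ℤ → ℤ, row = fun z => cr v (z - z0) / M := ⟨_, rfl⟩
  have hdv : ∀ z ∈ S, (M : ℤ) ∣ cr v (z - z0) := fun z hz =>
    H716.dvd_cross hvM (hS3 z hz z0 hz0)
  have hrow' : ∀ z ∈ S, cr v (z - z0) = M * row z := fun z hz => by
    rw [hrow]; exact (Int.mul_ediv_cancel' (hdv z hz)).symm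
  -- number of rows
  have hrows : ∀ z ∈ S, |(row z : ℝ)| ≤ 2 * nu v * (A * B) / M := by
    intro z hz
    rw [le_div_iff₀ hMr]
    have h1 : |(row z : ℝ)| * M = |(cr v (z - z0) : ℝ)| := by
      rw [hrow' z hz]; push_cast; rw [abs_mul, Nat.abs_cast, mul_comm]
    rw [h1]
    have h2 : (cr v (z - z0) : ℝ) * L ^ 2 =
        dd e v * cr e (z - z0) - cr e v * dd e (z - z0) := by
      rw [hL]; exact_mod_cast lag_e e v (z - z0)
    have h3 : |(cr v (z - z0) : ℝ)| * L ^ 2 ≤ (2 * nu v * (A * B)) * L ^ 2 := by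
      calc |(cr v (z - z0) : ℝ)| * L ^ 2 = |(cr v (z - z0) : ℝ) * L ^ 2| := by
            rw [abs_mul, abs_of_pos (by positivity : (0 : ℝ) < L ^ 2)]
        _ ≤ |(dd e v : ℝ)| * |(cr e (z - z0) : ℝ)| + |(cr e v : ℝ)| * |(dd e (z - z0) : ℝ)| := by
            rw [h2, ← abs_mul, ← abs_mul]; exact abs_sub _ _
        _ ≤ (nu v * (A * L)) * (B * L) + (nu v * (B * L)) * (A * L) := by
            gcongr
            · exact hnu1 v
            · exact hS2 z hz z0 hz0
            · exact hnu2 v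
            · exact hS1 z hz z0 hz0
        _ = _ := by ring
    exact le_of_mul_le_mul_right h3 (by positivity)
  -- points in a row
  have hfib : ∀ a ∈ S.image row, #{z ∈ S | row z = a} ≤ ⌊1 / nu v⌋₊ + 1 := by
    intro a ha
    obtain ⟨F, hF⟩ : ∃ F, F = S.filter (fun z => row z = a) := ⟨_, rfl⟩
    rw [← hF]
    have hFne : F.Nonempty := by
      obtain ⟨z, hz, hza⟩ := mem_image.1 ha
      exact ⟨z, hF ▸ mem_filter.2 ⟨hz, hza⟩⟩
    have hFS : ∀ z ∈ F, z ∈ S ∧ row z = a := fun z hz => mem_filter.1 (hF ▸ hz)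
    have hcr0 : ∀ z ∈ F, ∀ z' ∈ F, cr v (z - z') = 0 := by
      intro z hz z' hz'
      have h1 : cr v (z - z') = cr v (z - z0) - cr v (z' - z0) := by
        rw [← cr_sub]; congr 1; abel
      rw [h1, hrow' z (hFS z hz).1, hrow' z' (hFS z' hz').1, (hFS z hz).2, (hFS z' hz').2,
        sub_self]
    obtain ⟨z1, hz1, hz1min⟩ := exists_min_image F (fun z => dd v z) hFne
    have hd0 : ∀ z ∈ F, 0 ≤ ((dd v (z - z1) : ℝ)) / nm v := by
      intro z hz
      have : 0 ≤ dd v (z - z1) := by rw [dd_sub]; linarith [hz1min z hz]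
      have h' : (0 : ℝ) ≤ dd v (z - z1) := by exact_mod_cast this
      positivity
    have h1 : F.card ≤ (range (⌊1 / nu v⌋₊ + 1)).card := by
      refine card_le_card_of_injOn (fun z => ⌊((dd v (z - z1) : ℝ)) / nm v⌋₊) ?_ ?_
      · intro z hz
        have hz : z ∈ F := mem_coe.1 hz
        rw [coe_range, Set.mem_Iio, Nat.lt_succ_iff]
        refine Nat.floor_le_floor ?_
        rw [le_div_iff₀ hν0]
        have h3 := hpar (z - z1) (hcr0 z hz z1 hz1)
        rw [abs_of_nonneg (hd0 z hz)] at h3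
        rw [← h3]
        exact hle1 z (hFS z hz).1 z1 (hFS z1 hz1).1
      · intro z hz z' hz' hzz
        have hz : z ∈ F := mem_coe.1 hz
        have hz' : z' ∈ F := mem_coe.1 hz'
        simp only at hzz
        by_contra hne
        have h3 := hpar (z - z') (hcr0 z hz z' hz')
        have h4 : (dd v (z - z') : ℝ) / nm v =
            ((dd v (z - z1) : ℝ)) / nm v - ((dd v (z' - z1) : ℝ)) / nm v := by
          rw [← sub_div]
          congr 1
          have : dd v (z - z') = dd v (z - z1) - dd v (z' - z1) := by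
            rw [← dd_sub]; congr 1; abel
          rw [this]; push_cast; ring
        have h5 : |(dd v (z - z') : ℝ) / nm v| < 1 := by
          rw [h4, abs_lt]
          have a1 := Nat.floor_le (hd0 z hz)
          have a2 := Nat.lt_floor_add_one (((dd v (z - z1) : ℝ)) / nm v)
          have a3 := Nat.floor_le (hd0 z' hz')
          have a4 := Nat.lt_floor_add_one (((dd v (z' - z1) : ℝ)) / nm v)
          rw [hzz] at a1 a2
          constructor <;> linarith
        have h6 := hmin' z (hFS z hz).1 z' (hFS z' hz').1 hne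
        rw [h3] at h6
        have h7 : |(dd v (z - z') : ℝ) / nm v| * nu v < 1 * nu v :=
          mul_lt_mul_of_pos_right h5 hν0
        linarith
    rwa [card_range] at h1
  have hcard := card_le_mul_card_image S (⌊1 / nu v⌋₊ + 1) hfib
  have him : (S.image row).card ≤ 2 * ⌊2 * nu v * (A * B) / M⌋₊ + 1 := by
    have h1 : S.image row ⊆ Icc (-(⌊2 * nu v * (A * B) / M⌋₊ : ℤ)) ⌊2 * nu v * (A * B) / M⌋₊ := by
      intro a ha
      obtain ⟨z, hz, rfl⟩ := mem_image.1 ha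
      rw [mem_Icc, ← abs_le]
      have h3 : ((row z).natAbs : ℝ) ≤ 2 * nu v * (A * B) / M := by
        rw [Nat.cast_natAbs, Int.cast_abs]; exact hrows z hz
      have h4 : (row z).natAbs ≤ ⌊2 * nu v * (A * B) / M⌋₊ := Nat.le_floor h3
      rw [Int.abs_eq_natAbs]
      exact_mod_cast h4
    have h2 := card_le_card h1
    rw [Int.card_Icc] at h2
    omega
  have hfin : (S.card : ℝ) ≤ (1 / nu v + 1) * (2 * (2 * nu v * (A * B) / M) + 1) := by
    have h1 : (S.card : ℝ) ≤ ((⌊1 / nu v⌋₊ : ℝ) + 1) * (2 * (⌊2 * nu v * (A * B) / M⌋₊ : ℝ) + 1) := by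
      have := hcard.trans (Nat.mul_le_mul_left _ him)
      exact_mod_cast this
    refine h1.trans ?_
    have a1 : (⌊1 / nu v⌋₊ : ℝ) ≤ 1 / nu v := Nat.floor_le (by positivity)
    have a2 : (⌊2 * nu v * (A * B) / M⌋₊ : ℝ) ≤ 2 * nu v * (A * B) / M :=
      Nat.floor_le (by positivity)
    gcongr
  have hSr : (0 : ℝ) < S.card := by
    have : 0 < S.card := by omega
    exact_mod_cast this
  have hν4 : nu v ≤ 4 / S.card := by
    rw [le_div_iff₀ hSr]
    have h1 : 1 / nu v + 1 ≤ 2 / nu v := by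
      rw [div_add_one hν0.ne', div_le_div_iff_of_pos_right hν0]; linarith
    have h2 : (S.card : ℝ) ≤ (2 / nu v) * (2 * (2 * nu v * (A * B) / M) + 1) :=
      hfin.trans (mul_le_mul_of_nonneg_right h1 (by positivity))
    have h3 : (2 / nu v) * (2 * (2 * nu v * (A * B) / M) + 1) = 8 * (A * B) / M + 2 / nu v := by
      field_simp; ring
    have h4 : 8 * (A * B) / M ≤ S.card / 2 := by
      rw [div_le_iff₀ hMr]; linarith
    rw [h3] at h2
    have h5 : (S.card : ℝ) / 2 ≤ 2 / nu v := by linarith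
    rw [le_div_iff₀ hν0] at h5
    linarith
  refine ⟨v, hv0, hvM, ?_, ?_⟩
  · refine (hnu1 v).trans ?_
    calc nu v * (A * L) ≤ 4 / S.card * (A * L) := by gcongr
      _ = _ := by ring
  · refine (hnu2 v).trans ?_
    calc nu v * (B * L) ≤ 4 / S.card * (B * L) := by gcongr
      _ = _ := by ring

end Vale.Agent.P015.H721
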