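import Vale.Agent.P015.H716.End

/-!
P015, block (I), step STRIP: all differences of a window whose differences are popular have small
width.
-/

namespace Vale.Agent.P015.H721

open Finset

/-- cross product -/
def cr (v w : ℤ × ℤ) : ℤ := v.1 * w.2 - v.2 * w.1

/-- dot product -/
def dd (v w : ℤ × ℤ) : ℤ := v.1 * w.1 + v.2 * w.2

/-- square norm -/
def nm (v : ℤ × ℤ) : ℤ := v.1 ^ 2 + v.2 ^ 2

theorem nm_nonneg (v : ℤ × ℤ) : 0 ≤ nm v := by unfold nm; positivity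

theorem nm_pos {v : ℤ × ℤ} (h : v ≠ 0) : 0 < nm v := H716.sq_pos_of_ne h

theorem dd_cr (v w : ℤ × ℤ) : dd v w ^ 2 + cr v w ^ 2 = nm v * nm w := by
  unfold dd cr nm; ring

theorem dd_sub (e v w : ℤ × ℤ) : dd e (v - w) = dd e v - dd e w := by
  unfold dd; simp only [Prod.fst_sub, Prod.snd_sub]; ring

theorem cr_sub (e v w : ℤ × ℤ) : cr e (v - w) = cr e v - cr e w := by
  unfold cr; simp only [Prod.fst_sub, Prod.snd_sub]; ring

theorem div_mem {a A σ : ℤ} (hσ : 0 < σ) (ha : |a| ≤ A) :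
    a / σ ∈ Icc (-(A / σ) - 1) (A / σ) := by
  rw [abs_le] at ha
  rw [mem_Icc]
  refine ⟨?_, Int.ediv_le_ediv hσ ha.2⟩
  have h1 : (-A) / σ ≤ a / σ := Int.ediv_le_ediv hσ ha.1
  have h2 : -(A / σ) - 1 ≤ (-A) / σ := by
    rw [Int.le_ediv_iff_mul_le hσ]
    have h3 := Int.emod_add_mul_ediv A σ
    have h4 := Int.emod_nonneg A hσ.ne'
    have h5 := Int.emod_lt_of_pos A hσ
    nlinarith
  exact h2.trans h1

theorem abs_sub_lt_of_div {a b σ : ℤ} (hσ : 0 < σ) (h : a / σ = b / σ) : |a - b| < σ := by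
  have h1 := Int.emod_add_mul_ediv a σ
  have h2 := Int.emod_add_mul_ediv b σ
  have h3 := Int.emod_nonneg a hσ.ne'
  have h4 := Int.emod_lt_of_pos a hσ
  have h5 := Int.emod_nonneg b hσ.ne'
  have h6 := Int.emod_lt_of_pos b hσ
  rw [h] at h1
  rw [abs_lt]
  constructor <;> linarith

/-- Number of points of one residue class in a (rotated) rectangle. -/
theorem class_count {M : ℕ} {R : ℤ} (hR : (M : ℤ) ∣ R ^ 2 + 1) {e : ℤ × ℤ} {σ : ℤ} (hσ : 0 < σ) (hσ2 : 2 * σ ^ 2 ≤ M * nm e) {A B : ℤ}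
    (hA : 0 ≤ A) (hB : 0 ≤ B) (S : Finset (ℤ × ℤ)) (c : ℤ)
    (hS : ∀ z ∈ S, |dd e z| ≤ A ∧ |cr e z| ≤ B ∧ (z.1 + R * z.2) % (M : ℤ) = c) :
    (S.card : ℤ) ≤ (2 * (A / σ) + 2) * (2 * (B / σ) + 2) := by
  have h1 : S.card ≤ ((Icc (-(A / σ) - 1) (A / σ)) ×ˢ (Icc (-(B / σ) - 1) (B / σ))).card := by
    refine card_le_card_of_injOn (fun z => (dd e z / σ, cr e z / σ)) ?_ ?_
    · intro z hz
      have h := hS z hz
      simp only [coe_product, Set.mem_prod, mem_coe]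
      exact ⟨div_mem hσ h.1, div_mem hσ h.2.1⟩
    · intro z hz z' hz' hzz
      simp only [Prod.mk.injEq] at hzz
      have h2 := abs_sub_lt_of_div hσ hzz.1
      have h3 := abs_sub_lt_of_div hσ hzz.2
      rw [← dd_sub] at h2
      rw [← cr_sub] at h3
      by_contra hne
      have hne' : z - z' ≠ 0 := sub_ne_zero.2 hne
      have h4 : (M : ℤ) ∣ (z - z').1 + R * (z - z').2 := by
        have h5 : (z.1 + R * z.2) % (M : ℤ) = (z'.1 + R * z'.2) % (M : ℤ) :=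
          (hS z hz).2.2.trans (hS z' hz').2.2.symm
        have h6 := Int.ModEq.dvd (Int.ModEq.symm h5 : (z'.1 + R * z'.2) ≡ (z.1 + R * z.2) [ZMOD M])
        have h7 : (z - z').1 + R * (z - z').2 = z.1 + R * z.2 - (z'.1 + R * z'.2) := by
          simp only [Prod.fst_sub, Prod.snd_sub]; ring
        rw [h7]
        exact h6
      have h8 : (M : ℤ) ≤ nm (z - z') := H716.le_sq hR h4 hne'
      have h9 := dd_cr e (z - z')
      have h10 : dd e (z - z') ^ 2 < σ ^ 2 := by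
        rw [← sq_abs]
        exact pow_lt_pow_left₀ h2 (abs_nonneg _) two_ne_zero
      have h11 : cr e (z - z') ^ 2 < σ ^ 2 := by
        rw [← sq_abs]
        exact pow_lt_pow_left₀ h3 (abs_nonneg _) two_ne_zero
      have h12 : nm e * M ≤ nm e * nm (z - z') := mul_le_mul_of_nonneg_left h8 (nm_nonneg e)
      nlinarith
  have h2 : 0 ≤ A / σ := Int.ediv_nonneg hA hσ.le
  have h3 : 0 ≤ B / σ := Int.ediv_nonneg hB hσ.le
  rw [card_product, Int.card_Icc, Int.card_Icc] at h1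
  have h4 : ((A / σ + 1 - (-(A / σ) - 1)).toNat : ℤ) = 2 * (A / σ) + 2 := by
    rw [Int.toNat_of_nonneg (by linarith)]; ring
  have h5 : ((B / σ + 1 - (-(B / σ) - 1)).toNat : ℤ) = 2 * (B / σ) + 2 := by
    rw [Int.toNat_of_nonneg (by linarith)]; ring
  rw [← h4, ← h5]
  exact_mod_cast h1

/-- The statement of the tile lemma used here. -/
def TileStmt : Prop := ∀ (D : ℕ) (g : ℕ → ℤ × ℤ) (s t : ℕ),
  (∀ n, s ≤ n → n < t → |(g (n+1)).1 - (g n).1| ≤ D ∧ |(g (n+1)).2 - (g n).2| ≤ D) →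
  ∀ (i i' j j' : ℕ), i ∈ Icc s t → i' ∈ Icc s t → j ∈ Icc s t → j' ∈ Icc s t →
  ∀ Δ : Finset (ℤ × ℤ), (∀ k ∈ Icc s t, ∀ l ∈ Icc s t, g l - g k ∈ Δ) →
    |cr (g i' - g i) (g j' - g j)| ≤ (2 * D + 1) ^ 2 * (Δ.card : ℤ)

/-- one popular class: bound of the number of differences in this class -/
theorem class_count' {M : ℕ} {R : ℤ} (hR : (M : ℤ) ∣ R ^ 2 + 1) (hM : 3 ≤ M) {e : ℤ × ℤ}
    (hMe : (M : ℤ) ≤ nm e) {W : ℤ} (hW : (M : ℤ) * nm e ≤ W ^ 2) (hW0 : 0 ≤ W)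
    (S : Finset (ℤ × ℤ)) (c : ℤ)
    (hS : ∀ z ∈ S, nm z ≤ 25 * nm e ∧ |cr e z| ≤ W ∧ (z.1 + R * z.2) % (M : ℤ) = c) :
    (S.card : ℝ) ≤ 384 * W / M := by
  obtain ⟨E, hE⟩ : ∃ E : ℕ, (E : ℤ) = nm e := ⟨(nm e).toNat, Int.toNat_of_nonneg (nm_nonneg e)⟩
  rw [← hE] at hMe hW hS
  have hE3 : 3 ≤ E := by exact_mod_cast (le_trans (by exact_mod_cast hM) hMe : (3 : ℤ) ≤ E)
  have hMe' : M ≤ E := by exact_mod_cast hMe
  set σ : ℕ := Nat.sqrt (M * E / 2) with hσ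
  have h1 : σ * σ ≤ M * E / 2 := Nat.sqrt_le _
  have h2 : M * E / 2 < (σ + 1) * (σ + 1) := Nat.lt_succ_sqrt _
  have hME : 9 ≤ M * E := by nlinarith
  have h3 : 2 * (σ * σ) ≤ M * E := by omega
  have h4 : M * E < 2 * ((σ + 1) * (σ + 1)) := by omega
  have hσ1 : 1 ≤ σ := by
    rw [hσ]
    exact Nat.sqrt_pos.2 (by omega)
  have h5 : M * E ≤ 8 * (σ * σ) := by nlinarith
  have hσz : (0 : ℤ) < σ := by exact_mod_cast hσ1
  have h6 : 2 * (σ : ℤ) ^ 2 ≤ M * nm e := by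
    rw [← hE, sq]
    exact_mod_cast h3
  have h7 : (S.card : ℤ) ≤ (2 * ((5 * E : ℤ) / σ) + 2) * (2 * (W / σ) + 2) := by
    refine class_count hR hσz h6 (by positivity) hW0 S c fun z hz => ?_
    obtain ⟨ha, hb, hc⟩ := hS z hz
    refine ⟨?_, hb, hc⟩
    apply abs_le_of_sq_le_sq _ (by positivity)
    have h8 := dd_cr e z
    rw [← hE] at h8
    have h9 : (E : ℤ) * nm z ≤ E * (25 * E) := mul_le_mul_of_nonneg_left ha (by positivity)
    nlinarith [sq_nonneg (cr e z)]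
  have hσr : (0 : ℝ) < σ := by exact_mod_cast hσ1
  have hMr : (0 : ℝ) < M := by
    have : 0 < M := by omega
    exact_mod_cast this
  have hEr : (0 : ℝ) < E := by
    have : 0 < E := by omega
    exact_mod_cast this
  have hWr : (0 : ℝ) ≤ W := by exact_mod_cast hW0
  have h8 : (S.card : ℝ) ≤ (2 * ((5 * E : ℝ) / σ) + 2) * (2 * ((W : ℝ) / σ) + 2) := by
    have h9 : (S.card : ℝ) ≤ ((2 * (((5 * E : ℤ) / σ : ℤ) : ℝ) + 2) *
        (2 * ((W / σ : ℤ) : ℝ) + 2)) := by exact_mod_cast h7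
    refine h9.trans (mul_le_mul ?_ ?_ ?_ ?_)
    · have h10 : (((5 * E : ℤ) / σ : ℤ) : ℝ) ≤ (5 * E : ℝ) / σ := by
        rw [le_div_iff₀ hσr]
        exact_mod_cast Int.ediv_mul_le (5 * E : ℤ) hσz.ne'
      linarith
    · have h10 : ((W / σ : ℤ) : ℝ) ≤ (W : ℝ) / σ := by
        rw [le_div_iff₀ hσr]
        exact_mod_cast Int.ediv_mul_le W hσz.ne'
      linarith
    · have : (0 : ℤ) ≤ W / σ := Int.ediv_nonneg hW0 hσz.le
      have : (0 : ℝ) ≤ ((W / σ : ℤ) : ℝ) := by exact_mod_cast this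
      linarith
    · positivity
  have h9 : (σ : ℝ) ≤ E := by
    have : σ * σ ≤ E * E := by nlinarith
    exact_mod_cast Nat.mul_self_le_mul_self_iff.1 this
  have h10 : (σ : ℝ) ≤ W := by
    have h11 : ((σ : ℤ)) ^ 2 ≤ W ^ 2 := by
      refine le_trans ?_ hW
      have : σ ^ 2 ≤ M * E := by nlinarith
      exact_mod_cast this
    exact_mod_cast abs_le_of_sq_le_sq' h11 hW0 |>.2
  have h11 : 2 * ((5 * E : ℝ) / σ) + 2 ≤ 12 * E / σ := by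
    rw [le_div_iff₀ hσr]
    have : (2 * ((5 * E : ℝ) / σ) + 2) * σ = 10 * E + 2 * σ := by field_simp; ring
    rw [this]; linarith
  have h12 : 2 * ((W : ℝ) / σ) + 2 ≤ 4 * W / σ := by
    rw [le_div_iff₀ hσr]
    have : (2 * ((W : ℝ) / σ) + 2) * σ = 2 * W + 2 * σ := by field_simp
    rw [this]; linarith
  refine h8.trans ((mul_le_mul h11 h12 (by positivity) (by positivity)).trans ?_)
  have h13 : (M : ℝ) * E ≤ 8 * (σ * σ) := by exact_mod_cast h5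
  rw [div_mul_div_comm, div_le_div_iff₀ (by positivity) hMr]
  have h14 : 12 * (E : ℝ) * (4 * W) * M = 48 * W * (M * E) := by ring
  rw [h14]
  calc 48 * (W : ℝ) * (M * E) ≤ 48 * W * (8 * (σ * σ)) :=
        mul_le_mul_of_nonneg_left h13 (by positivity)
    _ = _ := by ring

/-- `M` is large if it has a popular class -/
theorem large_of_small {nb : ℕ} {M : Fin nb → ℕ} {P : Fin nb → Finset ℤ} {C : ℝ} (hC : 1 ≤ C)
    (hsmall : 640 * C * ∑ b, ((P b).card : ℝ) / M b < 1) {b : Fin nb} {c : ℤ} (hc : c ∈ P b)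
    (h0 : 0 < M b) : 3 ≤ M b := by
  have h0r : (0 : ℝ) < M b := by exact_mod_cast h0
  have h5 : (1 : ℝ) ≤ (P b).card := by
    have : 0 < (P b).card := card_pos.2 ⟨c, hc⟩
    exact_mod_cast this
  have h6 : (1 : ℝ) / M b ≤ ∑ b, ((P b).card : ℝ) / M b := by
    refine le_trans ?_ (single_le_sum (f := fun b => ((P b).card : ℝ) / M b)
      (fun _ _ => by positivity) (mem_univ b))
    gcongr
  have h7 : (0 : ℝ) < (1 : ℝ) / M b := by positivity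
  have h8 : 640 * (1 / (M b : ℝ)) < 1 := by
    refine lt_of_le_of_lt ?_ hsmall
    calc 640 * (1 / (M b : ℝ)) = 640 * 1 * (1 / (M b : ℝ)) := by ring
      _ ≤ 640 * C * ∑ b, ((P b).card : ℝ) / M b := by gcongr
  have h9 : 640 < (M b : ℝ) := by
    rw [mul_one_div, div_lt_one h0r] at h8
    exact h8
  have h10 : 640 < M b := by exact_mod_cast h9
  omega

/-- number of differences with a popular class -/
theorem card_le_pop {R : ℤ} {nb : ℕ} {M : Fin nb → ℕ} (hR : ∀ b, (M b : ℤ) ∣ R ^ 2 + 1)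
    {P : Fin nb → Finset ℤ} {Δ : Finset (ℤ × ℤ)}
    (hpop : ∀ z ∈ Δ, ∃ b, (z.1 + R * z.2) % (M b : ℤ) ∈ P b) {e : ℤ × ℤ}
    {Mx : ℕ} (hMx : ∀ b, M b ≤ Mx) (hMe : (Mx : ℤ) ≤ nm e)
    (hlen : ∀ z ∈ Δ, nm z ≤ 25 * nm e) {W : ℤ} (hW0 : 0 ≤ W) (hW1 : (Mx : ℤ) * nm e ≤ W ^ 2)
    (hmax : ∀ z ∈ Δ, |cr e z| ≤ W) (h3 : ∀ b, ∀ c ∈ P b, 3 ≤ M b) :
    (Δ.card : ℝ) ≤ 384 * (∑ b, ((P b).card : ℝ) / M b) * W := by
  classical
  have h1 : Δ ⊆ univ.biUnion fun b : Fin nb => (P b).biUnion fun c =>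
      Δ.filter fun z => (z.1 + R * z.2) % (M b : ℤ) = c := by
    intro z hz
    obtain ⟨b, hb⟩ := hpop z hz
    exact mem_biUnion.2 ⟨b, mem_univ b, mem_biUnion.2 ⟨_, hb, mem_filter.2 ⟨hz, rfl⟩⟩⟩
  have h2 : (Δ.card : ℝ) ≤ ∑ b : Fin nb, ∑ c ∈ P b,
      (((Δ.filter fun z => (z.1 + R * z.2) % (M b : ℤ) = c).card : ℕ) : ℝ) := by
    have h4 := (card_le_card h1).trans (card_biUnion_le.trans
      (sum_le_sum fun b _ => card_biUnion_le))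
    exact_mod_cast h4
  have h5 : ∑ b : Fin nb, ∑ c ∈ P b,
      (((Δ.filter fun z => (z.1 + R * z.2) % (M b : ℤ) = c).card : ℕ) : ℝ) ≤
      ∑ b : Fin nb, ((P b).card : ℝ) * (384 * W / M b) := by
    refine sum_le_sum fun b _ => ?_
    rw [← nsmul_eq_mul]
    refine sum_le_card_nsmul _ _ _ fun c hc => ?_
    have hMb : (M b : ℤ) ≤ Mx := by exact_mod_cast hMx b
    refine class_count' (hR b) (h3 b c hc) (hMb.trans hMe) ?_ hW0 _ c fun z hz => ?_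
    · exact (mul_le_mul_of_nonneg_right hMb (nm_nonneg e)).trans hW1
    · obtain ⟨hz, hzc⟩ := mem_filter.1 hz
      exact ⟨hlen z hz, hmax z hz, hzc⟩
  refine h2.trans (h5.trans (le_of_eq ?_))
  rw [mul_sum, sum_mul]
  refine sum_congr rfl fun b _ => ?_
  ring

/-- STRIP for a set of differences -/
theorem strip_core {D : ℕ} {R : ℤ} {nb : ℕ}
    {M : Fin nb → ℕ} (hR : ∀ b, (M b : ℤ) ∣ R ^ 2 + 1) {P : Fin nb → Finset ℤ}
    {e : ℤ × ℤ} {Δ : Finset (ℤ × ℤ)}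
    (hpop : ∀ z ∈ Δ, ∃ b, (z.1 + R * z.2) % (M b : ℤ) ∈ P b)
    {Mx : ℕ} (hMx : ∀ b, M b ≤ Mx) (hMe : (Mx : ℤ) ≤ nm e)
    (hlen : ∀ z ∈ Δ, nm z ≤ 25 * nm e)
    (hsmall : 640 * (2 * (D : ℝ) + 1) ^ 2 * ∑ b, ((P b).card : ℝ) / M b < 1)
    (htile : ∀ z ∈ Δ, |cr e z| ≤ (2 * D + 1) ^ 2 * (Δ.card : ℤ)) :
    ∀ z ∈ Δ, cr e z ^ 2 ≤ Mx * nm e := by
  intro z1 hz1
  by_contra hlt
  rw [not_le] at hlt
  obtain ⟨z0, hz0, hmax⟩ := exists_max_image Δ (fun z => |cr e z|) ⟨z1, hz1⟩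
  have htile0 := htile z0 hz0
  obtain ⟨W, hW⟩ : ∃ W : ℤ, |cr e z0| = W := ⟨_, rfl⟩
  have hW0 : 0 ≤ W := hW ▸ abs_nonneg _
  rw [hW] at htile0
  have hmax' : ∀ z ∈ Δ, |cr e z| ≤ W := fun z hz => (hmax z hz).trans_eq hW
  have hW1 : (Mx : ℤ) * nm e < W ^ 2 := by
    refine hlt.trans_le ?_
    rw [← sq_abs]
    exact pow_le_pow_left₀ (abs_nonneg _) (hmax' z1 hz1) 2
  have hWpos : 0 < W := by
    refine hW0.lt_of_ne fun h => ?_
    rw [← h, zero_pow two_ne_zero] at hW1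
    have h1 := mul_nonneg (Int.natCast_nonneg Mx) (nm_nonneg e)
    exact absurd hW1 (not_lt.2 h1)
  have hC : (1 : ℝ) ≤ (2 * (D : ℝ) + 1) ^ 2 := by
    have : (1 : ℝ) ≤ 2 * (D : ℝ) + 1 := by
      have : (0 : ℝ) ≤ D := Nat.cast_nonneg D
      linarith
    exact one_le_pow₀ this
  have hM0 : ∀ b, 0 < M b := by
    intro b
    refine Nat.pos_of_ne_zero fun h0 => ?_
    have h8 := hR b
    rw [h0, Nat.cast_zero, zero_dvd_iff] at h8
    have := sq_nonneg R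
    linarith
  have hcard := card_le_pop hR hpop hMx hMe hlen hW0 hW1.le hmax'
    fun b c hc => large_of_small hC hsmall hc (hM0 b)
  have hWr : (0 : ℝ) < W := by exact_mod_cast hWpos
  obtain ⟨σ, hσ⟩ : ∃ σ : ℝ, ∑ b, ((P b).card : ℝ) / M b = σ := ⟨_, rfl⟩
  rw [hσ] at hcard hsmall
  have hσ0 : 0 ≤ σ := hσ ▸ sum_nonneg fun _ _ => by positivity
  have h1 : (W : ℝ) ≤ (2 * (D : ℝ) + 1) ^ 2 * Δ.card := by exact_mod_cast htile0
  have h5 : 0 ≤ (2 * (D : ℝ) + 1) ^ 2 := by positivity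
  generalize (2 * (D : ℝ) + 1) ^ 2 = C at *
  have h2 : (W : ℝ) ≤ (384 * C * σ) * W := by
    refine h1.trans ((mul_le_mul_of_nonneg_left hcard h5).trans (le_of_eq ?_))
    ring
  have h3 : 384 * C * σ < 1 := by
    have h5 : 0 ≤ C * σ := mul_nonneg h5 hσ0
    linarith
  have h4 : (384 * C * σ) * W < 1 * W := mul_lt_mul_of_pos_right h3 hWr
  linarith

/-- **STRIP** -/
theorem strip (hT : TileStmt) {D : ℕ} {g : ℕ → ℤ × ℤ} {s t : ℕ} (hst : s ≤ t)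
    (hstep : ∀ n, s ≤ n → n < t →
      |(g (n+1)).1 - (g n).1| ≤ D ∧ |(g (n+1)).2 - (g n).2| ≤ D) {R : ℤ} {nb : ℕ}
    {M : Fin nb → ℕ} (hR : ∀ b, (M b : ℤ) ∣ R ^ 2 + 1) {P : Fin nb → Finset ℤ}
    (hpop : ∀ k ∈ Icc s t, ∀ l ∈ Icc s t,
      ∃ b, ((g l - g k).1 + R * (g l - g k).2) % (M b : ℤ) ∈ P b)
    {Mx : ℕ} (hMx : ∀ b, M b ≤ Mx) (hMe : (Mx : ℤ) ≤ nm (g t - g s))
    (hlen : ∀ k ∈ Icc s t, ∀ l ∈ Icc s t, nm (g l - g k) ≤ 25 * nm (g t - g s))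
    (hsmall : 640 * (2 * (D : ℝ) + 1) ^ 2 * ∑ b, ((P b).card : ℝ) / M b < 1) :
    ∀ k ∈ Icc s t, ∀ l ∈ Icc s t,
      cr (g t - g s) (g l - g k) ^ 2 ≤ Mx * nm (g t - g s) := by
  classical
  obtain ⟨Δ, hΔ⟩ : ∃ Δ : Finset (ℤ × ℤ),
    Δ = ((Icc s t) ×ˢ (Icc s t)).image fun x => g x.2 - g x.1 := ⟨_, rfl⟩
  have hmem : ∀ k ∈ Icc s t, ∀ l ∈ Icc s t, g l - g k ∈ Δ := fun k hk l hl =>
    hΔ ▸ mem_image.2 ⟨(k, l), mem_product.2 ⟨hk, hl⟩, rfl⟩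
  have hforall : ∀ q : ℤ × ℤ → Prop, (∀ k ∈ Icc s t, ∀ l ∈ Icc s t, q (g l - g k)) →
      ∀ z ∈ Δ, q z := by
    intro q hq z hz
    rw [hΔ] at hz
    obtain ⟨⟨k, l⟩, hkl, rfl⟩ := mem_image.1 hz
    obtain ⟨hk, hl⟩ := mem_product.1 hkl
    exact hq k hk l hl
  intro k hk l hl
  exact strip_core hR (hforall _ hpop) hMx hMe (hforall _ hlen) hsmall
    (hforall _ fun k hk l hl => hT D g s t hstep s t k l (left_mem_Icc.2 hst)
      (right_mem_Icc.2 hst) hk hl Δ hmem) _ (hmem k hk l hl)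

end Vale.Agent.P015.H721
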