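import Vale.Agent.P015.H721.ShortVec
import Vale.Agent.P015.H886.PopWin
import Mathlib.Combinatorics.Pigeonhole

/-!
P015, block (I), step TWOGRP: two groups of moduli give two short parallel vectors.
-/

namespace Vale.Agent.P015.H721

open Finset
open Vale.Agent.P015.H886 (lf res sd)

theorem nm_le_sd (z : ℤ × ℤ) : nm z ≤ 2 * sd z ^ 2 := by
  have h1 : |z.1| ≤ sd z := le_max_left _ _
  have h2 : |z.2| ≤ sd z := le_max_right _ _
  have h3 : z.1 ^ 2 ≤ sd z ^ 2 := by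
    rw [← sq_abs]; exact pow_le_pow_left₀ (abs_nonneg _) h1 2
  have h4 : z.2 ^ 2 ≤ sd z ^ 2 := by
    rw [← sq_abs]; exact pow_le_pow_left₀ (abs_nonneg _) h2 2
  unfold nm
  linarith

theorem sd_sq_le_nm (z : ℤ × ℤ) : sd z ^ 2 ≤ nm z := by
  unfold nm sd
  rcases max_choice |z.1| |z.2| with h | h <;> rw [h, sq_abs] <;> nlinarith [sq_nonneg z.1, sq_nonneg z.2]

theorem sd_path {g : ℕ → ℤ × ℤ} {D t0 t1 : ℕ}
    (hstep : ∀ t, t0 ≤ t → t < t1 → sd (g (t + 1) - g t) ≤ D) :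
    ∀ t, t0 ≤ t → t ≤ t1 → sd (g t - g t0) ≤ D * ((t : ℤ) - t0) := by
  intro t h0
  induction t, h0 using Nat.le_induction with
  | base => intro _; simp [sd]
  | succ n hn ih =>
    intro h1
    have h2 := ih (by omega)
    have h3 := hstep n hn (by omega)
    have h4 := H886.sd_sub_le (g (n + 1)) (g n) (g t0)
    push_cast
    linarith

/-- one group of moduli: a short vector -/
theorem group_vec {s D X : ℕ} {M : Fin s → ℕ} {R : ℤ} {y c3 L : ℝ} {g : ℕ → ℤ × ℤ} {t0 : ℕ}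
    {e : ℤ × ℤ} {P : Fin s → Finset ℤ} (hD : 1 ≤ D) (hDX : D ≤ X)
    (hcop : Pairwise (fun b b' => Nat.Coprime (M b) (M b')))
    (hlo : ∀ b, Real.exp y ≤ M b) (hL0 : 0 < L) (hL : L ^ 2 = (nm e : ℝ))
    (T : Finset ℕ) (hinj : ∀ t ∈ T, ∀ t' ∈ T, g t = g t' → t = t')
    (hin : ∀ t ∈ T, sd (g t - g t0) ≤ X + D)
    (hstrip : ∀ t ∈ T, ∀ t' ∈ T, (cr e (g t - g t') : ℝ) ^ 2 ≤ Real.exp (2 * y) * nm e)
    (hP : ∀ b, ((P b).card : ℝ) ≤ (M b : ℝ) ^ (1 - c3))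
    (hTP : ∀ t ∈ T, ∀ j, res R (M j) (g t - g t0) ∈ P j)
    (hTX : X ≤ 2 * (D * T.card)) (hy0 : 0 ≤ y)
    (hcs : 2 ≤ c3 * s) (hy1 : 192 * (D : ℝ) ≤ Real.exp y)
    (hX : 4 * (D : ℝ) * ((∏ j, M j : ℕ) : ℝ) ^ (1 - c3) ≤ X) :
    ∃ v : ℤ × ℤ, v ≠ 0 ∧ ((∏ j, M j : ℕ) : ℤ) ∣ v.1 + R * v.2 ∧
      |(dd e v : ℝ)| ≤ 48 * D * ((∏ j, M j : ℕ) : ℝ) ^ (1 - c3) * L ∧
      |(cr e v : ℝ)| ≤ 8 * D * Real.exp y * ((∏ j, M j : ℕ) : ℝ) ^ (1 - c3) / X * L := by
  classical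
  have hM0 : ∀ b, (0 : ℝ) < M b := fun b => (Real.exp_pos _).trans_le (hlo b)
  obtain ⟨Mi, hMi⟩ : ∃ Mi : ℕ, Mi = ∏ j, M j := ⟨_, rfl⟩
  have hMir : (Mi : ℝ) = ∏ j, (M j : ℝ) := by rw [hMi, Nat.cast_prod]
  have hMi0 : (0 : ℝ) < Mi := by rw [hMir]; exact prod_pos fun j _ => hM0 j
  have hMi0' : 0 < Mi := by exact_mod_cast hMi0
  rw [← hMi] at hX ⊢
  obtain ⟨κ, hκ⟩ : ∃ κ : ℝ, κ = (Mi : ℝ) ^ (1 - c3) := ⟨_, rfl⟩
  have hκ0 : 0 < κ := hκ ▸ Real.rpow_pos_of_pos hMi0 _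
  rw [← hκ] at hX ⊢
  have hDr : (1 : ℝ) ≤ D := by exact_mod_cast hD
  have hX0 : 0 < X := by omega
  have hXr : (0 : ℝ) < X := by exact_mod_cast hX0
  have hTr : (X : ℝ) ≤ 2 * (D * T.card) := by exact_mod_cast hTX
  -- pigeonhole
  obtain ⟨f, hf⟩ : ∃ f : ℕ → (Fin s → ℤ), f = fun t j => res R (M j) (g t - g t0) := ⟨_, rfl⟩
  have hTne : T.Nonempty := by
    rw [← card_pos]
    rcases Nat.eq_zero_or_pos T.card with h | h
    · rw [h] at hTX; omega
    · exact h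
  have hmaps : ∀ t ∈ T, f t ∈ Fintype.piFinset P := fun t ht => by
    rw [Fintype.mem_piFinset]; intro j; rw [hf]; exact hTP t ht j
  have hpne : (Fintype.piFinset P).Nonempty := by
    obtain ⟨t, ht⟩ := hTne
    exact ⟨_, hmaps t ht⟩
  have hpc : (((Fintype.piFinset P).card : ℕ) : ℝ) ≤ κ := by
    rw [Fintype.card_piFinset, Nat.cast_prod, hκ, hMir, ← Real.finsetProd_rpow _ _ fun j _ => (hM0 j).le]
    exact prod_le_prod (fun j _ => Nat.cast_nonneg _) fun j _ => hP j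
  obtain ⟨r, hr, hrc⟩ := exists_le_card_fiber_of_nsmul_le_card_of_maps_to (b := (T.card : ℝ) / κ)
    hmaps hpne (by
      rw [nsmul_eq_mul, ← mul_div_assoc, div_le_iff₀ hκ0, mul_comm (T.card : ℝ) κ]
      gcongr)
  obtain ⟨T', hT'⟩ : ∃ T', T' = T.filter (fun t => f t = r) := ⟨_, rfl⟩
  rw [← hT'] at hrc
  have hT'T : ∀ t ∈ T', t ∈ T ∧ f t = r := fun t ht => mem_filter.1 (hT' ▸ ht)
  obtain ⟨S, hS⟩ : ∃ S : Finset (ℤ × ℤ), S = T'.image (fun t => g t - g t0) := ⟨_, rfl⟩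
  have hSc : S.card = T'.card := by
    rw [hS]
    refine card_image_of_injOn fun t ht t' ht' h => ?_
    exact hinj t (hT'T t ht).1 t' (hT'T t' ht').1 (sub_left_inj.1 h)
  have hScr : (X : ℝ) / (2 * D * κ) ≤ S.card := by
    rw [hSc]
    refine le_trans ?_ hrc
    rw [div_le_div_iff₀ (by positivity) hκ0]
    calc (X : ℝ) * κ ≤ 2 * (D * T.card) * κ := by gcongr
      _ = _ := by ring
  have hSc0 : (0 : ℝ) < S.card := lt_of_lt_of_le (by positivity) hScr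
  have hSall : ∀ q : ℤ × ℤ → ℤ × ℤ → Prop, (∀ t ∈ T', ∀ t' ∈ T', q (g t - g t0) (g t' - g t0)) →
      ∀ z ∈ S, ∀ z' ∈ S, q z z' := by
    intro q hq z hz z' hz'
    rw [hS] at hz hz'
    obtain ⟨t, ht, rfl⟩ := mem_image.1 hz
    obtain ⟨t', ht', rfl⟩ := mem_image.1 hz'
    exact hq t ht t' ht'
  have hdiff : ∀ t t', (g t - g t0) - (g t' - g t0) = g t - g t' := fun t t' => by abel
  have hMc : (Mi : ℝ) = κ * (Mi : ℝ) ^ c3 := by
    rw [hκ, ← Real.rpow_add hMi0]; simp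
  have hMc2 : Real.exp (2 * y) ≤ (Mi : ℝ) ^ c3 := by
    have h1 : Real.exp (s * y) ≤ Mi := by
      rw [hMir, Real.exp_nat_mul]
      calc (Real.exp y) ^ s = ∏ _j : Fin s, Real.exp y := by simp
        _ ≤ _ := prod_le_prod (fun _ _ => (Real.exp_pos _).le) fun j _ => hlo j
    have hc0 : 0 < c3 := by
      by_contra h
      rw [not_lt] at h
      have : c3 * s ≤ 0 := mul_nonpos_of_nonpos_of_nonneg h (Nat.cast_nonneg s)
      linarith
    calc Real.exp (2 * y) ≤ Real.exp ((s * y) * c3) := by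
          apply Real.exp_le_exp.2; nlinarith
      _ = (Real.exp (s * y)) ^ c3 := by rw [Real.exp_mul]
      _ ≤ _ := Real.rpow_le_rpow (Real.exp_pos _).le h1 hc0.le
  have hE : (0 : ℝ) < nm e := by rw [← hL]; positivity
  obtain ⟨v, hv0, hvM, hv1, hv2⟩ := shortvec (M := Mi) (R := R) (A := 6 * X) (B := Real.exp y)
    hL0 hL (by positivity) (Real.exp_pos y) hMi0' S
    (hSall _ fun t ht t' ht' => by
      rw [hdiff]
      have h1 := H886.sd_sub_le (g t) (g t0) (g t')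
      have h2 := hin t (hT'T t ht).1
      have h3 := hin t' (hT'T t' ht').1
      rw [H886.sd_sub_comm (g t0) (g t')] at h1
      have h4 : sd (g t - g t') ≤ 4 * X := by
        have : (D : ℤ) ≤ X := by exact_mod_cast hDX
        linarith
      have h5 := nm_le_sd (g t - g t')
      have h6 : nm (g t - g t') ≤ 36 * (X : ℤ) ^ 2 := by
        have := pow_le_pow_left₀ (H886.sd_nonneg (g t - g t')) h4 2
        nlinarith [sq_nonneg (X : ℤ)]
      have h7 := dd_cr e (g t - g t')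
      refine abs_le_of_sq_le_sq ?_ (by positivity)
      have h8 : (dd e (g t - g t') : ℝ) ^ 2 ≤ nm e * (36 * (X : ℝ) ^ 2) := by
        have : dd e (g t - g t') ^ 2 ≤ nm e * (36 * (X : ℤ) ^ 2) := by
          have h9 := mul_le_mul_of_nonneg_left h6 (nm_nonneg e)
          nlinarith [sq_nonneg (cr e (g t - g t'))]
        exact_mod_cast this
      rw [← hL] at h8
      nlinarith)
    (hSall _ fun t ht t' ht' => by
      rw [hdiff]
      refine abs_le_of_sq_le_sq ?_ (by positivity)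
      refine (hstrip t (hT'T t ht).1 t' (hT'T t' ht').1).trans (le_of_eq ?_)
      rw [← hL, mul_pow, ← Real.exp_nat_mul]; norm_num)
    (hSall _ fun t ht t' ht' => by
      rw [hMi]
      refine H886.prod_dvd hcop fun j => ?_
      have h1 : res R (M j) (g t - g t0) = res R (M j) (g t' - g t0) := by
        have h2 := congrFun ((hT'T t ht).2.trans (hT'T t' ht').2.symm) j
        rw [hf] at h2
        exact h2
      exact H886.res_eq h1)
    (by
      have h1 : (2 : ℝ) ≤ S.card := by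
        refine le_trans ?_ hScr
        rw [le_div_iff₀ (by positivity)]; linarith
      exact_mod_cast h1)
    (by
      have h1 : (Mi : ℝ) = κ * (Mi : ℝ) ^ c3 := hMc
      calc 16 * (6 * (X : ℝ) * Real.exp y) = X / (2 * D * κ) * (κ * (192 * D * Real.exp y)) := by
            rw [div_mul_eq_mul_div, eq_div_iff (by positivity)]; ring
        _ ≤ X / (2 * D * κ) * (κ * (Real.exp y * Real.exp y)) := by gcongr
        _ = X / (2 * D * κ) * (κ * Real.exp (2 * y)) := by rw [← Real.exp_add]; ring_nf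
        _ ≤ S.card * (κ * (Mi : ℝ) ^ c3) :=
            mul_le_mul hScr (mul_le_mul_of_nonneg_left hMc2 hκ0.le) (by positivity) hSc0.le
        _ = S.card * Mi := congrArg _ h1.symm)
  refine ⟨v, hv0, hvM, hv1.trans ?_, hv2.trans ?_⟩
  · refine mul_le_mul_of_nonneg_right ?_ hL0.le
    rw [div_le_iff₀ hSc0]
    calc 4 * (6 * (X : ℝ)) = 48 * D * κ * (X / (2 * D * κ)) := by
          rw [← mul_div_assoc, eq_div_iff (by positivity)]; ring
      _ ≤ _ := by gcongr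
  · refine mul_le_mul_of_nonneg_right ?_ hL0.le
    rw [div_le_iff₀ hSc0]
    calc 4 * Real.exp y = 8 * D * Real.exp y * κ / X * (X / (2 * D * κ)) := by
          rw [div_mul_div_comm, eq_div_iff (by positivity)]; ring
      _ ≤ _ := by gcongr

/-- two groups which are good for half of the times -/
theorem two_groups {G s : ℕ} (hG : 2 ≤ G) (T : Finset ℕ) (hT : T.Nonempty)
    (Q : ℕ → Fin G × Fin s → Prop) [∀ t, DecidablePred (Q t)]
    (hQ : ∀ t ∈ T, 8 * ((univ : Finset (Fin G × Fin s)).filter (fun b => ¬ Q t b)).card ≤ G) :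
    ∃ i i' : Fin G, i ≠ i' ∧ T.card ≤ 2 * (T.filter (fun t => ∀ j, Q t (i, j))).card ∧
      T.card ≤ 2 * (T.filter (fun t => ∀ j, Q t (i', j))).card := by
  classical
  obtain ⟨n, hn⟩ : ∃ n : Fin G → ℕ, n = fun i => (T.filter (fun t => ∀ j, Q t (i, j))).card :=
    ⟨_, rfl⟩
  have hni : ∀ i, n i = (T.filter (fun t => ∀ j, Q t (i, j))).card := fun i => by rw [hn]
  obtain ⟨H, hH⟩ : ∃ H : Finset (Fin G), H = univ.filter (fun i => T.card ≤ 2 * n i) := ⟨_, rfl⟩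
  by_cases h1 : 1 < H.card
  · obtain ⟨i, hi, i', hi', hne⟩ := one_lt_card.1 h1
    rw [hH] at hi hi'
    have a1 := (mem_filter.1 hi).2
    have a2 := (mem_filter.1 hi').2
    rw [hni] at a1 a2
    exact ⟨i, i', hne, a1, a2⟩
  · exfalso
    rw [not_lt] at h1
    have hT0 : 0 < T.card := card_pos.2 hT
    -- lower bound
    have hlow : 7 * G * T.card ≤ 8 * ∑ i, n i := by
      have h2 : ∑ i, n i = ∑ t ∈ T, (univ.filter (fun i : Fin G => ∀ j, Q t (i, j))).card := by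
        simp only [hni, card_filter]
        rw [sum_comm]
      rw [h2, mul_sum, mul_comm, ← smul_eq_mul]
      refine card_nsmul_le_sum _ _ _ fun t ht => ?_
      have h3 : (univ.filter (fun i : Fin G => ¬ ∀ j, Q t (i, j))).card ≤
          ((univ : Finset (Fin G × Fin s)).filter (fun b => ¬ Q t b)).card := by
        have h4 : univ.filter (fun i : Fin G => ¬ ∀ j, Q t (i, j)) ⊆
            ((univ : Finset (Fin G × Fin s)).filter (fun b => ¬ Q t b)).image Prod.fst := by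
          intro i hi
          have h5 := (mem_filter.1 hi).2
          push Not at h5
          obtain ⟨j, hj⟩ := h5
          exact mem_image.2 ⟨(i, j), mem_filter.2 ⟨mem_univ _, hj⟩, rfl⟩
        exact (card_le_card h4).trans card_image_le
      have h5 := card_filter_add_card_filter_not (s := (univ : Finset (Fin G)))
        (fun i : Fin G => ∀ j, Q t (i, j))
      rw [card_univ, Fintype.card_fin] at h5
      have h6 := hQ t ht
      omega
    -- upper bound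
    have hup : 2 * ∑ i, n i ≤ (G + H.card) * T.card := by
      have h2 : ∀ i, 2 * n i ≤ T.card + (if i ∈ H then T.card else 0) := by
        intro i
        split_ifs with hi
        · have : n i ≤ T.card := by rw [hni]; exact card_filter_le _ _
          omega
        · have h3 : ¬ T.card ≤ 2 * n i := fun h => hi (hH ▸ mem_filter.2 ⟨mem_univ _, h⟩)
          omega
      rw [mul_sum]
      refine (sum_le_sum fun i _ => h2 i).trans (le_of_eq ?_)
      rw [sum_add_distrib, sum_const, card_univ, Fintype.card_fin, sum_ite_mem, univ_inter,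
        sum_const, smul_eq_mul, smul_eq_mul]
      ring
    have h3 : (G + H.card) * T.card ≤ (G + 1) * T.card := Nat.mul_le_mul_right _ (by omega)
    have h4 : 7 * G * T.card ≤ 4 * (G + 1) * T.card := by
      calc 7 * G * T.card ≤ 8 * ∑ i, n i := hlow
        _ = 4 * (2 * ∑ i, n i) := by ring
        _ ≤ 4 * ((G + 1) * T.card) := Nat.mul_le_mul_left _ (hup.trans h3)
        _ = _ := by ring
    have h5 := Nat.le_of_mul_le_mul_right h4 hT0
    omega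

/-- two short vectors of two groups: contradiction -/
theorem fin_end {s D X m m' : ℕ} {R : ℤ} {y c3 L κ κ' : ℝ} {e v w : ℤ × ℤ}
    (hDr : (1 : ℝ) ≤ D) (hy0 : 0 ≤ y) (hXr : (0 : ℝ) < X) (hL0 : 0 < L)
    (hL : L ^ 2 = (nm e : ℝ))
    (hX1 : 768 * (D : ℝ) ^ 2 * Real.exp ((4 * s + 1) * y) < X)
    (hy2 : 2401 * (D : ℝ) ^ 2 < Real.exp (4 * y))
    (hv0 : v ≠ 0) (hvM : (m : ℤ) ∣ v.1 + R * v.2)
    (hv1 : |(dd e v : ℝ)| ≤ 48 * D * κ * L)
    (hv2 : |(cr e v : ℝ)| ≤ 8 * D * Real.exp y * κ / X * L)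
    (hw0 : w ≠ 0) (hwM : (m' : ℤ) ∣ w.1 + R * w.2)
    (hw1 : |(dd e w : ℝ)| ≤ 48 * D * κ' * L)
    (hw2 : |(cr e w : ℝ)| ≤ 8 * D * Real.exp y * κ' / X * L)
    (hcopi : IsCoprime (m : ℤ) (m' : ℤ)) (hMRi1 : (m : ℤ) ∣ R ^ 2 + 1)
    (hMRi1' : (m' : ℤ) ∣ R ^ 2 + 1)
    (hκi : κ ≤ Real.exp (2 * s * y)) (hκi' : κ' ≤ Real.exp (2 * s * y))
    (hkm : (m : ℝ) = κ * (m : ℝ) ^ c3) (hkm' : (m' : ℝ) = κ' * (m' : ℝ) ^ c3)
    (hb : Real.exp (2 * y) ≤ (m : ℝ) ^ c3) (hb' : Real.exp (2 * y) ≤ (m' : ℝ) ^ c3)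
    (hκ0 : 0 < κ) (hκ0' : 0 < κ') : False := by
  have hX8 : 8 * Real.exp y ≤ X := by
    refine le_trans ?_ hX1.le
    have h1 : Real.exp y ≤ Real.exp ((4 * s + 1) * y) := by
      apply Real.exp_le_exp.2
      have : (0 : ℝ) ≤ s * y := by positivity
      nlinarith
    have h2 : (8 : ℝ) ≤ 768 * (D : ℝ) ^ 2 := by nlinarith
    exact mul_le_mul h2 h1 (Real.exp_pos _).le (by positivity)
  -- cross product zero
  have hcr0 : v.1 * w.2 - v.2 * w.1 = 0 := by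
    have h1 : (cr v w : ℝ) * L ^ 2 = dd e v * cr e w - cr e v * dd e w := by
      rw [hL]; exact_mod_cast lag_e e v w
    have h2 : |(cr v w : ℝ)| * L ^ 2 ≤ (768 * D ^ 2 * Real.exp y * (κ * κ') / X) * L ^ 2 := by
      calc |(cr v w : ℝ)| * L ^ 2 = |(cr v w : ℝ) * L ^ 2| := by
            rw [abs_mul, abs_of_pos (by positivity : (0 : ℝ) < L ^ 2)]
        _ ≤ |(dd e v : ℝ)| * |(cr e w : ℝ)| + |(cr e v : ℝ)| * |(dd e w : ℝ)| := by
            rw [h1, ← abs_mul, ← abs_mul]; exact abs_sub _ _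
        _ ≤ (48 * D * κ * L) * (8 * D * Real.exp y * κ' / X * L) +
            (8 * D * Real.exp y * κ / X * L) * (48 * D * κ' * L) := by gcongr
        _ = _ := by ring
    have h3 : |(cr v w : ℝ)| ≤ 768 * D ^ 2 * Real.exp y * (κ * κ') / X :=
      le_of_mul_le_mul_right h2 (by positivity)
    have h4 : 768 * (D : ℝ) ^ 2 * Real.exp y * (κ * κ') / X < 1 := by
      rw [div_lt_one hXr]
      refine lt_of_le_of_lt ?_ hX1
      have h5 : κ * κ' ≤ Real.exp (4 * s * y) := by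
        calc κ * κ' ≤ Real.exp (2 * s * y) * Real.exp (2 * s * y) := by gcongr
          _ = _ := by rw [← Real.exp_add]; congr 1; ring
      calc 768 * (D : ℝ) ^ 2 * Real.exp y * (κ * κ')
          ≤ 768 * (D : ℝ) ^ 2 * Real.exp y * Real.exp (4 * s * y) := by gcongr
        _ = _ := by rw [mul_assoc, ← Real.exp_add]; congr 2; ring
    have h5 : |cr v w| < 1 := by
      have : |(cr v w : ℝ)| < 1 := lt_of_le_of_lt h3 h4
      exact_mod_cast this
    exact Int.abs_lt_one_iff.1 h5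
  obtain ⟨hend1, hend2⟩ := H716.end_dot hMRi1 hMRi1' hcopi hvM hwM hcr0 hv0 hw0
  -- norms
  have hnorm : ∀ (u : ℤ × ℤ) (k : ℝ), 0 < k → |(dd e u : ℝ)| ≤ 48 * D * k * L →
      |(cr e u : ℝ)| ≤ 8 * D * Real.exp y * k / X * L → (nm u : ℝ) ≤ (49 * D * k) ^ 2 := by
    intro u k hk h1 h2
    have h3 : ((dd e u : ℝ)) ^ 2 + (cr e u : ℝ) ^ 2 = L ^ 2 * nm u := by
      rw [hL]; exact_mod_cast dd_cr e u
    have h4 : (dd e u : ℝ) ^ 2 ≤ (48 * D * k * L) ^ 2 := by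
      rw [← sq_abs]; exact pow_le_pow_left₀ (abs_nonneg _) h1 2
    have h5 : |(cr e u : ℝ)| ≤ D * k * L := by
      refine h2.trans ?_
      refine mul_le_mul_of_nonneg_right ?_ hL0.le
      rw [div_le_iff₀ hXr]
      calc 8 * (D : ℝ) * Real.exp y * k = D * k * (8 * Real.exp y) := by ring
        _ ≤ _ := by gcongr
    have h6 : (cr e u : ℝ) ^ 2 ≤ (D * k * L) ^ 2 := by
      rw [← sq_abs]; exact pow_le_pow_left₀ (abs_nonneg _) h5 2
    have h7 : L ^ 2 * (nm u : ℝ) ≤ L ^ 2 * (49 * D * k) ^ 2 := by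
      rw [← h3]
      have h8 : 0 ≤ ((D : ℝ) * k * L) ^ 2 := by positivity
      nlinarith
    exact le_of_mul_le_mul_left h7 (by positivity)
  have hnv := hnorm v κ hκ0 hv1 hv2
  have hnw := hnorm w κ' hκ0' hw1 hw2
  have h1 : ((m : ℝ) * m') ^ 2 ≤ (2401 * D ^ 2 * (κ * κ')) ^ 2 := by
    have h2 : ((m : ℤ) * m') ^ 2 ≤ (v.1 * w.1 + v.2 * w.2) ^ 2 := by
      rw [← sq_abs (v.1 * w.1 + v.2 * w.2)]
      exact pow_le_pow_left₀ (by positivity) hend1 2
    have h3 : ((m : ℤ) * m') ^ 2 ≤ nm v * nm w := h2.trans_eq hend2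
    have h4 : ((m : ℝ) * m') ^ 2 ≤ nm v * nm w := by exact_mod_cast h3
    have h5 : (0 : ℝ) ≤ nm w := by exact_mod_cast nm_nonneg w
    calc ((m : ℝ) * m') ^ 2 ≤ nm v * nm w := h4
      _ ≤ (49 * D * κ) ^ 2 * (49 * D * κ') ^ 2 := mul_le_mul hnv hnw h5 (by positivity)
      _ = _ := by ring
  have h2 : (m : ℝ) * m' ≤ 2401 * D ^ 2 * (κ * κ') :=
    le_of_sq_le_sq h1 (by positivity)
  have h3 : (m : ℝ) ^ c3 * (m' : ℝ) ^ c3 ≤ 2401 * D ^ 2 := by
    have h4 : (κ * κ') * ((m : ℝ) ^ c3 * (m' : ℝ) ^ c3) ≤ (κ * κ') * (2401 * D ^ 2) := by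
      calc (κ * κ') * ((m : ℝ) ^ c3 * (m' : ℝ) ^ c3) = (κ * (m : ℝ) ^ c3) * (κ' * (m' : ℝ) ^ c3) := by
            ring
        _ = m * m' := by rw [← hkm, ← hkm']
        _ ≤ 2401 * D ^ 2 * (κ * κ') := h2
        _ = _ := by ring
    exact le_of_mul_le_mul_left h4 (by positivity)
  have h4 : Real.exp (4 * y) ≤ 2401 * D ^ 2 := by
    calc Real.exp (4 * y) = Real.exp (2 * y) * Real.exp (2 * y) := by
          rw [← Real.exp_add]; congr 1; ring
      _ ≤ (m : ℝ) ^ c3 * (m' : ℝ) ^ c3 := mul_le_mul hb hb' (Real.exp_pos _).le (by positivity)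
      _ ≤ _ := h3
  linarith

/-- **TWOGRP** -/
theorem twogrp {G s D X : ℕ} {M : Fin G × Fin s → ℕ} {R : ℤ} {y c3 : ℝ} {g : ℕ → ℤ × ℤ}
    {t0 t1 : ℕ} {P : Fin G × Fin s → Finset ℤ} (hG : 2 ≤ G)
    (hcop : Pairwise (fun b b' => Nat.Coprime (M b) (M b')))
    (hR : ∀ b, (M b : ℤ) ∣ R ^ 2 + 1) (hlo : ∀ b, Real.exp y ≤ M b)
    (hhi : ∀ b, (M b : ℝ) ≤ Real.exp (2 * y)) (hD : 1 ≤ D) (hDX : D ≤ X) (h01 : t0 ≤ t1)
    (hinj : ∀ t ∈ Icc t0 t1, ∀ t' ∈ Icc t0 t1, g t = g t' → t = t')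
    (hstep : ∀ t, t0 ≤ t → t < t1 → sd (g (t + 1) - g t) ≤ D)
    (hX : (X : ℤ) < sd (g t1 - g t0))
    (hin : ∀ t ∈ Icc t0 t1, sd (g t - g t0) ≤ X + D)
    (hP : ∀ b, ((P b).card : ℝ) ≤ (M b : ℝ) ^ (1 - c3))
    (hpop : ∀ t ∈ Icc t0 t1, ∀ t' ∈ Icc t0 t1,
      8 * ((univ : Finset (Fin G × Fin s)).filter
        (fun b => res R (M b) (g t' - g t) ∉ P b)).card ≤ G)
    (hstrip : ∀ t ∈ Icc t0 t1, ∀ t' ∈ Icc t0 t1,
      (cr (g t1 - g t0) (g t' - g t) : ℝ) ^ 2 ≤ Real.exp (2 * y) * nm (g t1 - g t0))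
    (hcs : 2 ≤ c3 * s) (hy1 : 192 * (D : ℝ) ≤ Real.exp y)
    (hX1 : 768 * (D : ℝ) ^ 2 * Real.exp ((4 * s + 1) * y) < X)
    (hy2 : 2401 * (D : ℝ) ^ 2 < Real.exp (4 * y)) : False := by
  classical
  have hDr : (1 : ℝ) ≤ D := by exact_mod_cast hD
  have hy0 : 0 ≤ y := by
    have h1 : (1 : ℝ) ≤ Real.exp y := by linarith
    exact Real.one_le_exp_iff.1 h1
  have hM0 : ∀ b, (0 : ℝ) < M b := fun b => (Real.exp_pos _).trans_le (hlo b)
  have hX0 : 0 < X := by omega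
  have hXr : (0 : ℝ) < X := by exact_mod_cast hX0
  have hc0 : 0 < c3 := by
    by_contra h
    rw [not_lt] at h
    have : c3 * s ≤ 0 := mul_nonpos_of_nonpos_of_nonneg h (Nat.cast_nonneg s)
    linarith
  obtain ⟨e, he⟩ : ∃ e : ℤ × ℤ, e = g t1 - g t0 := ⟨_, rfl⟩
  rw [← he] at hX hstrip
  have he0 : 0 < nm e := by
    have h1 := sd_sq_le_nm e
    have h2 : (0 : ℤ) < sd e := lt_of_le_of_lt (Int.natCast_nonneg X) hX
    have h3 : 0 < sd e ^ 2 := by positivity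
    linarith
  have he0r : (0 : ℝ) < nm e := by exact_mod_cast he0
  obtain ⟨L, hLdef⟩ : ∃ L : ℝ, L = Real.sqrt (nm e) := ⟨_, rfl⟩
  have hL0 : 0 < L := hLdef ▸ Real.sqrt_pos.2 he0r
  have hL : L ^ 2 = (nm e : ℝ) := by rw [hLdef, Real.sq_sqrt he0r.le]
  -- number of times
  have hTc : X ≤ D * (Icc t0 t1).card := by
    have h1 := sd_path hstep t1 h01 le_rfl
    rw [← he] at h1
    have h2 : (X : ℤ) < D * ((t1 : ℤ) - t0) := lt_of_lt_of_le hX h1
    rw [Nat.card_Icc]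
    have h3 : (X : ℤ) ≤ D * ((t1 + 1 - t0 : ℕ) : ℤ) := by
      have h4 : ((t1 + 1 - t0 : ℕ) : ℤ) = (t1 : ℤ) - t0 + 1 := by omega
      rw [h4]; nlinarith
    exact_mod_cast h3
  have ht0 : t0 ∈ Icc t0 t1 := left_mem_Icc.2 h01
  obtain ⟨i, i', hii, hi, hi'⟩ := two_groups hG (Icc t0 t1) ⟨t0, ht0⟩
    (fun t b => res R (M b) (g t - g t0) ∈ P b) (fun t ht => hpop t0 ht0 t ht)
  -- group quantities
  have hMi : ∀ i : Fin G, (0 : ℝ) < ((∏ j, M (i, j) : ℕ) : ℝ) := fun i => by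
    rw [Nat.cast_prod]; exact prod_pos fun j _ => hM0 _
  have hMhi : ∀ i : Fin G, ((∏ j, M (i, j) : ℕ) : ℝ) ≤ Real.exp (2 * s * y) := fun i => by
    rw [Nat.cast_prod]
    calc ∏ j, (M (i, j) : ℝ) ≤ ∏ _j : Fin s, Real.exp (2 * y) :=
          prod_le_prod (fun _ _ => (hM0 _).le) fun j _ => hhi _
      _ = _ := by
          rw [prod_const, card_univ, Fintype.card_fin, ← Real.exp_nat_mul]; congr 1; ring
  have hMlo : ∀ i : Fin G, Real.exp (s * y) ≤ ((∏ j, M (i, j) : ℕ) : ℝ) := fun i => by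
    rw [Nat.cast_prod, Real.exp_nat_mul]
    calc (Real.exp y) ^ s = ∏ _j : Fin s, Real.exp y := by simp
      _ ≤ _ := prod_le_prod (fun _ _ => (Real.exp_pos _).le) fun j _ => hlo _
  have hκ1 : ∀ i : Fin G, ((∏ j, M (i, j) : ℕ) : ℝ) ^ (1 - c3) ≤ Real.exp (2 * s * y) := by
    intro i
    have h1 : (1 : ℝ) ≤ ((∏ j, M (i, j) : ℕ) : ℝ) :=
      (Real.one_le_exp (by positivity)).trans (hMlo i)
    calc ((∏ j, M (i, j) : ℕ) : ℝ) ^ (1 - c3) ≤ ((∏ j, M (i, j) : ℕ) : ℝ) ^ (1 : ℝ) :=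
          Real.rpow_le_rpow_of_exponent_le h1 (by linarith)
      _ = _ := Real.rpow_one _
      _ ≤ _ := hMhi i
  have hXκ : ∀ i : Fin G, 4 * (D : ℝ) * ((∏ j, M (i, j) : ℕ) : ℝ) ^ (1 - c3) ≤ X := by
    intro i
    refine le_trans ?_ hX1.le
    have h1 : Real.exp (2 * s * y) ≤ Real.exp ((4 * s + 1) * y) := by
      apply Real.exp_le_exp.2
      have : (0 : ℝ) ≤ s * y := by positivity
      nlinarith
    calc 4 * (D : ℝ) * ((∏ j, M (i, j) : ℕ) : ℝ) ^ (1 - c3)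
        ≤ 4 * (D : ℝ) * Real.exp ((4 * s + 1) * y) := by
          have := (hκ1 i).trans h1
          gcongr
      _ ≤ _ := by
          refine mul_le_mul_of_nonneg_right ?_ (Real.exp_pos _).le
          nlinarith
  have hgrp : ∀ i : Fin G, (Icc t0 t1).card ≤ 2 * ((Icc t0 t1).filter
      (fun t => ∀ j, res R (M (i, j)) (g t - g t0) ∈ P (i, j))).card →
      ∃ v : ℤ × ℤ, v ≠ 0 ∧ ((∏ j, M (i, j) : ℕ) : ℤ) ∣ v.1 + R * v.2 ∧
      |(dd e v : ℝ)| ≤ 48 * D * ((∏ j, M (i, j) : ℕ) : ℝ) ^ (1 - c3) * L ∧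
      |(cr e v : ℝ)| ≤ 8 * D * Real.exp y * ((∏ j, M (i, j) : ℕ) : ℝ) ^ (1 - c3) / X * L := by
    intro i hi
    refine group_vec (M := fun j => M (i, j)) (P := fun j => P (i, j)) (t0 := t0) (g := g) hD hDX
      (fun j j' hjj => hcop fun h => hjj (Prod.ext_iff.1 h).2) (fun j => hlo _) hL0 hL
      ((Icc t0 t1).filter (fun t => ∀ j, res R (M (i, j)) (g t - g t0) ∈ P (i, j)))
      (fun t ht t' ht' => hinj t (mem_filter.1 ht).1 t' (mem_filter.1 ht').1)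
      (fun t ht => hin t (mem_filter.1 ht).1)
      (fun t ht t' ht' => hstrip t' (mem_filter.1 ht').1 t (mem_filter.1 ht).1)
      (fun j => hP _) (fun t ht j => (mem_filter.1 ht).2 j) ?_ hy0 hcs hy1 (hXκ i)
    refine hTc.trans ?_
    calc D * (Icc t0 t1).card ≤ D * (2 * ((Icc t0 t1).filter
        (fun t => ∀ j, res R (M (i, j)) (g t - g t0) ∈ P (i, j))).card) :=
          Nat.mul_le_mul_left _ hi
      _ = _ := by ring
  obtain ⟨v, hv0, hvM, hv1, hv2⟩ := hgrp i hi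
  obtain ⟨w, hw0, hwM, hw1, hw2⟩ := hgrp i' hi'
  have hMRi : ∀ i : Fin G, ((∏ j, M (i, j) : ℕ) : ℤ) ∣ R ^ 2 + 1 := fun i =>
    H886.prod_dvd (fun j j' hjj => hcop fun h => hjj (Prod.ext_iff.1 h).2) fun j => hR _
  have hcopi : IsCoprime ((∏ j, M (i, j) : ℕ) : ℤ) ((∏ j, M (i', j) : ℕ) : ℤ) := by
    rw [Nat.isCoprime_iff_coprime]
    refine Nat.Coprime.prod_left fun j _ => Nat.Coprime.prod_right fun j' _ => hcop fun h => ?_
    exact hii (Prod.ext_iff.1 h).1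
  have hkm : ∀ i : Fin G, ((∏ j, M (i, j) : ℕ) : ℝ) =
      ((∏ j, M (i, j) : ℕ) : ℝ) ^ (1 - c3) * ((∏ j, M (i, j) : ℕ) : ℝ) ^ c3 := by
    intro i
    rw [← Real.rpow_add (hMi i)]
    have : 1 - c3 + c3 = 1 := by ring
    rw [this, Real.rpow_one]
  have hbig : ∀ x : ℝ, Real.exp (s * y) ≤ x → Real.exp (2 * y) ≤ x ^ c3 := by
    intro x hx
    calc Real.exp (2 * y) ≤ Real.exp ((s * y) * c3) := by
          apply Real.exp_le_exp.2; nlinarith
      _ = (Real.exp (s * y)) ^ c3 := by rw [Real.exp_mul]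
      _ ≤ _ := Real.rpow_le_rpow (Real.exp_pos _).le hx hc0.le
  exact fin_end hDr hy0 hXr hL0 hL hX1 hy2 hv0 hvM hv1 hv2 hw0 hwM hw1 hw2 hcopi (hMRi i)
    (hMRi i') (hκ1 i) (hκ1 i') (hkm i) (hkm i') (hbig _ (hMlo i)) (hbig _ (hMlo i'))
    (Real.rpow_pos_of_pos (hMi i) _) (Real.rpow_pos_of_pos (hMi i') _)

end Vale.Agent.P015.H721
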