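import Vale.Agent.P015.H721.TwoGrp
import Vale.Agent.P015.H886.SS

/-! The two-group lemma in the form of `H886.TwoGrp`. -/

namespace Vale.Agent.P015.H721

open Finset

theorem twoGrp : H886.TwoGrp := by
  intro G s D X M R y c₃ g t0 t1 P hG _ hcop hR hlo hhi hD hDX h01 hinj hstep hX hin hP hpop
    hstrip hcs hy1 hX1 hy2
  have hI : ∀ t ∈ Icc t0 t1, t0 ≤ t ∧ t ≤ t1 := fun t ht => mem_Icc.1 ht
  exact twogrp hG hcop hR hlo hhi hD hDX h01
    (fun t ht t' ht' => hinj t t' (hI t ht).1 (hI t ht).2 (hI t' ht').1 (hI t' ht').2)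
    hstep hX (fun t ht => hin t (hI t ht).1 (hI t ht).2) hP
    (fun t ht t' ht' => hpop t t' (hI t ht).1 (hI t ht).2 (hI t' ht').1 (hI t' ht').2)
    (fun t ht t' ht' => hstrip t t' (hI t ht).1 (hI t ht).2 (hI t' ht').1 (hI t' ht').2)
    hcs hy1 hX1 hy2

end Vale.Agent.P015.H721
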